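import Vale.Agent.P078.Local.Chain.Sets
import Vale.Agent.P078.Local.Glue.Levels

/-!
# A good resolved history gives a paving (`StmtFinish`)
-/

noncomputable section

namespace Vale.Agent.P078.Local.Finish

open Finset
open scoped ComplexConjugate ComplexOrder

variable {ι : Type*} [Fintype ι] [DecidableEq ι] {p : Par}

omit [Fintype ι] [DecidableEq ι] in
/-- With at most seven live colours the largest one is at least `1/10`. -/
theorem colour_ge (hp : p.Ok) {h : ι → Fin p.r → ℝ} {u : ι} (hh : ∑ d, h u d = 1)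
    (hlive : (live p h u).card < 8) {c : Fin p.r} (hc : ∀ d, h u d ≤ h u c) : 1 / 10 ≤ h u c := by
  have hr : (8 : ℝ) ≤ p.r := by exact_mod_cast hp.r_ge
  have h0 : 0 ≤ p.h0 + Real.sqrt p.η :=
    add_nonneg (Par.h0_pos hp).le (Real.sqrt_nonneg _)
  have hbound : p.h0 + Real.sqrt p.η ≤ 3 / (10 * (p.r : ℝ)) := by
    have hη := hp.η_le
    simp only [Par.h0] at hη ⊢
    have e : 3 / (10 * (p.r : ℝ)) = 1 / (4 * p.r) + 1 / (4 * p.r) / 5 := by field_simp; ring
    linarith
  by_contra hlt
  rw [not_le] at hlt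
  have hsplit := sum_filter_add_sum_filter_not (univ : Finset (Fin p.r))
    (fun d => p.h0 + Real.sqrt p.η ≤ h u d) (fun d => h u d)
  have h1 : ∑ d ∈ live p h u, h u d ≤ 7 / 10 := by
    have hcard : ((live p h u).card : ℝ) ≤ 7 := by
      exact_mod_cast (by omega : (live p h u).card ≤ 7)
    refine (sum_le_card_nsmul _ _ (1 / 10) fun d _ => ((hc d).trans hlt.le)).trans ?_
    rw [nsmul_eq_mul]
    linarith
  have h2 : ∑ d ∈ univ.filter (fun d => ¬ p.h0 + Real.sqrt p.η ≤ h u d), h u d < 3 / 10 := by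
    set F := univ.filter (fun d => ¬ p.h0 + Real.sqrt p.η ≤ h u d)
    rcases F.eq_empty_or_nonempty with he | he
    · rw [he]; norm_num
    calc ∑ d ∈ F, h u d < ∑ _d ∈ F, (p.h0 + Real.sqrt p.η) :=
          sum_lt_sum_of_nonempty he fun d hd => not_le.1 (mem_filter.1 hd).2
      _ = (F.card : ℝ) * (p.h0 + Real.sqrt p.η) := by rw [sum_const, nsmul_eq_mul]
      _ ≤ (p.r : ℝ) * (p.h0 + Real.sqrt p.η) := by
          refine mul_le_mul_of_nonneg_right ?_ h0
          exact_mod_cast (card_le_univ F).trans (Fintype.card_fin _).le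
      _ ≤ (p.r : ℝ) * (3 / (10 * p.r)) := mul_le_mul_of_nonneg_left hbound (by linarith)
      _ = 3 / 10 := by field_simp
  simp only [live] at h1
  linarith

/-- The two signs of a positive definite gap bound the quadratic form. -/
theorem opLe_of_posDef {D : ℕ} (N : Net ι D) {U : Finset ι} {a : ℝ}
    (h : ∀ s, ((a : ℂ) • (1 : Matrix U U ℂ) - Matrix.of fun l u : U => N.xs s l u).PosDef) :
    OpLe U N.x a := by
  intro v
  set w : U → ℂ := fun l => v l
  have key : ∀ s, (∑ l ∈ U, ∑ u ∈ U, conj (v l) * N.xs s l u * v u).re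
      ≤ a * ∑ l ∈ U, Complex.normSq (v l) := by
    intro s
    have h1 := (h s).posSemidef.dotProduct_mulVec_nonneg w
    rw [Complex.le_def] at h1
    have h2 := h1.1
    simp only [Matrix.sub_mulVec, Matrix.smul_mulVec, Matrix.one_mulVec, dotProduct_sub,
      dotProduct_smul, Complex.zero_re, Complex.sub_re, smul_eq_mul, Complex.re_ofReal_mul] at h2
    have e1 : (dotProduct (star w) w).re = ∑ l ∈ U, Complex.normSq (v l) := by
      rw [← sum_coe_sort U]
      simp [dotProduct, w, Complex.normSq_apply]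
    have e2 : (dotProduct (star w) ((Matrix.of fun l u : U => N.xs s l u).mulVec w)).re
        = (∑ l ∈ U, ∑ u ∈ U, conj (v l) * N.xs s l u * v u).re := by
      congr 1
      rw [← sum_coe_sort U]
      refine sum_congr rfl fun l _ => ?_
      rw [← sum_coe_sort U]
      simp [Matrix.mulVec, dotProduct, w, mul_sum, mul_assoc]
    rw [e1, e2] at h2
    linarith
  have hneg : (∑ l ∈ U, ∑ u ∈ U, conj (v l) * N.xs false l u * v u)
      = -∑ l ∈ U, ∑ u ∈ U, conj (v l) * N.x l u * v u := by
    simp [Net.xs, sum_neg_distrib]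
  have k1 := key true
  have k2 := key false
  simp only [hneg, Complex.neg_re] at k2
  simp only [Net.xs, if_true] at k1
  exact abs_le.2 ⟨by linarith, k1⟩

/-- **`StmtFinish`.** -/
theorem finishStmt : Iface.StmtFinish (ι := ι) p := by
  intro hp N ω σ o m hstart hm hgood hlive c U hU hcol
  have hUrt : U ⊆ N.ball o p.rt := hU.trans (N.ball_mono hm)
  have hlaw := stateAt_isLaw (N := N) ω σ hp p.Nph
  have hlawU : IsLaw U (stateAt p N ω σ p.Nph).h := hlaw.mono (subset_univ _)
  have ht := hp.t0_pos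
  refine opLe_of_posDef N fun s => ?_
  have hvS := Chain.chainStmt hp N ω σ o s p.Nph 2 hstart le_rfl (len_dvd_Nph 2)
  rw [Chain.floor2_Nph hp] at hvS
  have hv := hvS.subset (hlaw.mono (subset_univ _))
    (hUrt.trans (hgood.1 p.Nph le_rfl 2 s))
  have h1 := Glue.posDef_of_valid hlawU hv (fun a _ => N.xs_diag s a) (L := 2 * p.t0) (p := 1 / 10)
    (by norm_num) (fun _ _ => by linarith) (fun _ _ => le_rfl) (c := c) fun a ha =>
      colour_ge hp (hlaw a (mem_univ a)).2 (hlive a (hU ha)) (hcol a ha).1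
  rwa [show 2 * p.t0 / (1 / 10) = 20 * p.t0 by ring] at h1

end Vale.Agent.P078.Local.Finish
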